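import Vale.Agent.P275SL.Nr
import Vale.Agent.P281.MF.Hol

/-!
# P275, Kuranishi theory: the local action on the space of framed connections
-/

set_option linter.unusedSectionVars false

open scoped Topology Matrix.Norms.Operator
open Set Filter Metric Matrix
open Vale.Agent.P275GC Vale.Agent.P275GC.At Vale.Agent.P275MO Vale.Agent.P275MB
open Vale.Agent.P275NA (Fm Cy Mn fc)

noncomputable section

namespace Vale.Agent.P275SL

variable {C : Type} [TopologicalSpace C] {n : ℕ} {A : At C} {l : Cy A ℂ} {τ : Ty n}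
  {z0 z z' : Dat C A.N n} {i0 : Fin A.N} {ε : ℝ} {B : Vb A l z0.g i0 (A.e i0 z0.x) ε}
  (N : Cn A l τ z0 i0 ε B) {r' : ℝ} {h1' : 1 < r'}

/-- the coordinates of an object -/
abbrev yy (s : Cv B.k) (z : Dat C A.N n) : Yp τ B.k N.k := yc A τ i0 N.th s z

/-- the pole is near the pole of `z0` -/
def Px (x : C) : Prop :=
  x ∈ (A.e i0).source ∧ A.e i0 x ∈ ball (A.e i0 z0.x) N.δ ∧ A.e i0 x ∈ ball (0 : ℂ) 1

variable {N}

theorem Px.src {x : C} (h : Px N x) (h2' : r' ≤ A.R) : x ∈ ((A.res r' h1' h2').e i0).source :=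
  ⟨h.1, ball_subset_ball h1'.le h.2.2⟩

theorem Px.ev {x : C} (h : Px N x) : ∀ᶠ y in 𝓝 x, Px N y :=
  Eventually.and ((A.e i0).open_source.mem_nhds h.1) (((A.e i0).continuousAt h.1).eventually
    ((isOpen_ball.eventually_mem h.2.1).and (isOpen_ball.eventually_mem h.2.2)))

theorem px_F {y : Yp τ B.k N.k} (h : y ∈ N.W) : Px N (N.F y).x := by
  obtain ⟨-, a, b⟩ := N.sW y h
  have c := ball_subset_ball A.hR.le b
  rw [Px, N.x, rinv c]
  exact ⟨map_tgt c, a, b⟩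

theorem yy_same {h2' : r' ≤ A.R} (h : Px N z.x) (e : Same (A.res r' h1' h2') z z') (s : Cv B.k) :
    yy N s z' = yy N s z := by
  rw [yy, yy, yc, yc, N.loc s r' h1' h2' z z' h.1 h.2.1 e, e.lam, e.x, e.R, e.σ i0 (h.src h2')]

theorem yy_cont {T : Type} [TopologicalSpace T] {s : T → Cv B.k} {G : T → Dat C A.N n} {V : Set T}
    {h2' : r' ≤ B.r} (f : FamOn (A.res r' h1' (h2'.trans B.h2)) l G V) (hs : ContinuousOn s V)
    (h : ∀ t ∈ V, s t ∈ B.W ∧ Px N (G t).x ∧ ∀ i j, ∀ w ∈ (A.res r' h1' (h2'.trans B.h2)).O i j,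
      (G t).g i j w = fc A (B.F (s t)) z0.g i j w) :
    ContinuousOn (fun t => yy N (s t) (G t)) V :=
  hs.prodMk (f.lam.prodMk (((A.e i0).continuousOn.comp f.x fun t a => (h t a).2.1.1).prodMk
    (((f.σ i0).mono fun t a => ⟨a, (h t a).2.1.src _⟩).prodMk
      ((τ.pq.continuous.comp_continuousOn f.R).prodMk (N.thc T s G V r' h1' h2' f hs
        fun t a => ⟨(h t a).1, (h t a).2.1.1, (h t a).2.1.2.1, (h t a).2.2⟩)))))

theorem yy_diff {T : Type} [NormedAddCommGroup T] [NormedSpace ℂ T] [FiniteDimensional ℂ T]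
    {s : T → Cv B.k} {G : T → Dat C A.N n} {V : Set T} {h2' : r' ≤ B.r} (hV : IsOpen V)
    (f : HFamOn (A.res r' h1' (h2'.trans B.h2)) l G V) (hs : DifferentiableOn ℂ s V)
    (h : ∀ t ∈ V, s t ∈ B.W ∧ Px N (G t).x ∧ ∀ i j, ∀ w ∈ (A.res r' h1' (h2'.trans B.h2)).O i j,
      (G t).g i j w = fc A (B.F (s t)) z0.g i j w) :
    DifferentiableOn ℂ (fun t => yy N (s t) (G t)) V :=
  hs.prodMk (f.hlam.prodMk (((f.hx i0).mono fun t a => ⟨a, (h t a).2.1.src _⟩).prodMk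
    (((f.hσ i0).mono fun t a => ⟨a, (h t a).2.1.src _⟩).prodMk
      ((τ.pq.differentiable.comp_differentiableOn f.hR).prodMk (N.thh T s G V r' h1' h2' hV f hs
        fun t a => ⟨(h t a).1, (h t a).2.1.1, (h t a).2.1.2.1, (h t a).2.2⟩)))))

/-- the base of the charts -/
abbrev Bq (τ : Ty n) : Type := ℂ × ℂ × (Fin τ.m → ℂ)

variable (N) in
/-- a chart of the zero set of the obstruction map -/
structure Zc where
  D : ℕ
  ζ : Bq τ × Cv D → Yp τ B.k N.k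
  ρ : Yp τ B.k N.k → Bq τ × Cv D
  V : Set (Bq τ × Cv D)
  op : IsOpen V
  mem : ρ (yy N 0 z0) ∈ V
  dζ : DifferentiableOn ℂ ζ V
  cρ : ContDiff ℂ 1 ρ
  base : ζ (ρ (yy N 0 z0)) = yy N 0 z0
  pr : ∀ y, (ρ y).1 = (y.2.1, y.2.2.1, τ.η y.2.2.2.2.1)
  inW : ∀ v ∈ V, ζ v ∈ N.W ∧ N.ob (ζ v) = 0
  rz : ∀ v ∈ V, ρ (ζ v) = v
  zr : ∀ v ∈ V, ∀ᶠ y in 𝓝 (ζ v), N.ob y = 0 → ζ (ρ y) = y
  inU : ∀ v ∈ V, (0, (ζ v).1) ∈ B.U

theorem base_same (g0 : Good A l z0) (hq : z0.R ∈ τ.q) (hx : z0.x ∈ (A.e i0).source) :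
    N.ob (yy N 0 z0) = 0 ∧ Same (A.res B.r B.h1 B.h2) z0 (N.F (yy N 0 z0)) :=
  N.rcv 0 B.r B.h1 le_rfl z0 (Good.res g0) hq hx (fun i j w a => by
    simp only [fc, B.F0 i w a.1, B.F0 j _ (res_O.1 a).2.2, inv_one, one_mul, mul_one]) N.base

theorem ex_zc (h0 : N.ob (yy N 0 z0) = 0) : Nonempty (Zc N) := by
  let pr : Yp τ B.k N.k →L[ℂ] Bq τ := LinearMap.toContinuousLinearMap
    ⟨⟨fun y => (y.2.1, y.2.2.1, τ.η y.2.2.2.2.1), fun _ _ => by simp⟩, fun _ _ => by simp⟩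
  obtain ⟨D, ζ, ρ, k1, k2, k3, k4, k5, k6⟩ := sla _ _ _ N.ob pr (yy N 0 z0)
    ((P281.MF.contDiffOn_of_differentiableOn N.op N.hob 1).contDiffAt (N.op.mem_nhds N.base)) h0
    fun o b => by
      obtain ⟨R, hR, e⟩ := τ.onto b.2.2
      obtain ⟨s, σ, e'⟩ := N.sur (o - fderiv ℂ N.ob (yy N 0 z0) (0, b.1, b.2.1, 0, ⟨R, hR⟩, 0))
      refine ⟨(s, 0, 0, σ, 0, 0) + (0, b.1, b.2.1, 0, ⟨R, hR⟩, 0),
        by rw [map_add]; exact eq_sub_iff_add_eq.1 e', Prod.ext (zero_add _)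
          (Prod.ext (zero_add _) ?_)⟩
      exact (congrArg (fun R : τ.q => τ.η R) (zero_add (⟨R, hR⟩ : τ.q))).trans e
  have c : Tendsto ζ (𝓝 (ρ (yy N 0 z0))) (𝓝 (yy N 0 z0)) := by
    have := k1.continuousAt.tendsto
    rwa [k3] at this
  obtain ⟨V, a, b, d⟩ := _root_.eventually_nhds_iff.1 ((k1.eventually (by simp)).and
    ((c.eventually (N.op.mem_nhds N.base)).and (k5.and ((c.eventually k6.eventually_nhds).and
      (((continuous_const.prodMk continuous_fst).tendsto _ |>.comp c).eventually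
        (B.opU.mem_nhds B.zeroU))))))
  exact ⟨⟨D, ζ, ρ, V, b, d, fun v h => ((a v h).1.differentiableAt one_ne_zero).differentiableWithinAt,
    k2, k3, k4, fun v h => ⟨(a v h).2.1, (a v h).2.2.1.1⟩, fun v h => (a v h).2.2.1.2,
    fun v h => (a v h).2.2.2.1, fun v h => (a v h).2.2.2.2⟩⟩

/-- the trace free part of `H` -/
def H0 (τ : Ty n) : Submodule ℂ (Mn n) :=
  τ.H.toSubmodule ⊓ LinearMap.ker (Matrix.traceLinearMap (Fin n) ℂ ℂ)

namespace Zc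

variable (K : Zc N)

/-- the parameters of the action -/
abbrev Pa : Type := (Cv B.m × H0 τ) × (Bq τ × Cv K.D)

/-- the family over the chart -/
abbrev Z (v : Bq τ × Cv K.D) : Dat C A.N n := N.F (K.ζ v)

/-- the groupoid parameter -/
abbrev gp (p : K.Pa) : Cv B.m × Cv B.k := (p.1.1, (K.ζ p.2).1)

/-- the transformed object -/
def G (p : K.Pa) : Dat C A.N n := gauge A (B.Φ (K.gp p)) ((K.Z p.2).act (1 + p.1.2))

/-- its coordinates -/
def y (p : K.Pa) : Yp τ B.k N.k := yy N (B.sa (K.gp p)) (K.G p)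

/-- the domain of the action -/
def P : Set K.Pa := {p | p.2 ∈ K.V ∧ K.gp p ∈ B.U ∧ (1 + p.1.2 : Mn n).det ≠ 0}

variable {K} {p : K.Pa} {v : Bq τ × Cv K.D}

theorem fam : HFamOn (A.res B.r B.h1 B.h2) l K.Z K.V := N.fam _ K.ζ K.V K.op K.dζ K.inW

theorem good (h : v ∈ K.V) : Good (A.res B.r B.h1 B.h2) l (K.Z v) := fam.good v h

theorem px (h : v ∈ K.V) : Px N (K.Z v).x := px_F (K.inW v h).1

theorem con (h : v ∈ K.V) : yy N (K.ζ v).1 (K.Z v) = K.ζ v := N.con _ (K.inW v h).1 (K.inW v h).2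

theorem fst_eq (h : v ∈ K.V) : v.1 = ((K.ζ v).2.1, (K.ζ v).2.2.1, τ.η (K.ζ v).2.2.2.2.1) := by
  rw [← K.pr, K.rz v h]

theorem d_gp : DifferentiableOn ℂ K.gp {p | p.2 ∈ K.V} :=
  differentiableOn_fst.fst.prodMk (K.dζ.comp (f := Prod.snd) differentiableOn_snd fun _ a => a).fst

theorem d_h : Differentiable ℂ fun p : K.Pa => (1 + p.1.2 : Mn n) :=
  ((H0 τ).subtypeL.differentiable.comp differentiable_fst.snd).const_add _

theorem P_open : IsOpen K.P := by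
  have := (d_gp.continuousOn.isOpen_inter_preimage (K.op.preimage continuous_snd) B.opU).inter
    (isOpen_ne_fun d_h.continuous.matrix_det (continuous_const (y := 0)))
  rwa [inter_assoc] at this

theorem P_zero (h : v ∈ K.V) : ((0, v) : K.Pa) ∈ K.P := ⟨h, K.inU v h, by simp⟩

theorem mem_H (p : K.Pa) : (1 + p.1.2 : Mn n) ∈ τ.H := add_mem (one_mem _) p.1.2.2.1

theorem side (h : p ∈ K.P) : (1 + p.1.2 : Mn n).det ≠ 0 ∧
    Bun (A.res B.r B.h1 B.h2) l (fc A (B.F (B.sa (K.gp p))) z0.g) ∧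
    BIso (A.res B.r B.h1 B.h2) (fc A (B.F (B.sa (K.gp p))) z0.g) (K.Z p.2).g (B.Φ (K.gp p)) :=
  ⟨h.2.2, B.bun _ (B.iso _ h.2.1).2.1, by rw [N.g]; exact (B.iso _ h.2.1).2.2⟩

theorem G_R (h : p ∈ K.P) : (K.G p).R ∈ τ.q ∧ τ.η (K.G p).R = τ.η (K.ζ p.2).2.2.2.2.1 := by
  have := τ.conj _ (inv_mem_alg (mem_H p) h.2.2)
    (isUnit_nonsing_inv_det _ h.2.2.isUnit).ne_zero _ (K.ζ p.2).2.2.2.2.1.2
  rw [nonsing_inv_nonsing_inv _ h.2.2.isUnit] at this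
  change _ * (N.F _).R * _ ∈ _ ∧ τ.η (_ * (N.F _).R * _) = _
  rwa [N.R]

variable (gf : GF n (A.res B.r B.h1 B.h2) l)
include gf

theorem G_iso (h : p ∈ K.P) : Good (A.res B.r B.h1 B.h2) l (K.G p) ∧
    IsoBy (A.res B.r B.h1 B.h2) (K.G p) ((K.Z p.2).act (1 + p.1.2)) (B.Φ (K.gp p)) 1 ∧
    ∀ i j, ∀ w ∈ (A.res B.r B.h1 B.h2).O i j,
      (K.G p).g i j w = fc A (B.F (B.sa (K.gp p))) z0.g i j w :=
  gf.1 _ _ _ (Good.act (good h.1) h.2.2) (side h).2.1 (side h).2.2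

theorem d_y : DifferentiableOn ℂ K.y K.P := by
  have d := (d_gp (K := K)).mono (show K.P ⊆ _ from fun _ a => a.1)
  refine yy_diff (h2' := le_rfl) P_open (gf.2.2.2 _ (fun p : K.Pa => K.Z p.2) _ _ _ K.P P_open
    (N.fam _ _ _ P_open (K.dζ.comp differentiableOn_snd fun _ a => a.1) fun p a => K.inW _ a.1)
    d_h.differentiableOn (fun i => (B.hΦ i).comp
      ((d.comp differentiableOn_fst fun _ a => a.1).prodMk differentiableOn_snd)
      fun _ a => ⟨a.1.2.1, a.2⟩) fun p a => side a) (B.hsa.comp d fun _ a => a.2.1)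
    fun p a => ⟨(B.iso _ a.2.1).2.1, px a.1, (G_iso gf a).2.2⟩

/-- the coordinates of the source of an isomorphism -/
theorem y_eq (h : p ∈ K.P) {v' : Bq τ × Cv K.D} (h' : v' ∈ K.V) (e : B.sa (K.gp p) = (K.ζ v').1)
    (f : IsoBy (A.res B.r B.h1 B.h2) (K.Z v') (K.Z p.2) (B.Φ (K.gp p)) (1 + p.1.2)) :
    K.y p = K.ζ v' := by
  rw [y, e, ← con h']
  exact yy_same (px h') (gf.2.1 _ _ _ _ (good h') (good h.1) f).2.2 _

theorem y_zero (h : v ∈ K.V) : K.y (0, v) = K.ζ v :=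
  y_eq gf (P_zero h) h (B.id _ (K.inU v h)).1 (by
    have := isoBy_congr (isoBy_refl (A := A.res B.r B.h1 B.h2) (K.Z v)) (B.id _ (K.inU v h)).2
    rwa [show (1 + ((0, v) : K.Pa).1.2 : Mn n) = 1 by simp])

omit gf in
theorem fst_y (h : p ∈ K.P) : (K.ρ (K.y p)).1 = p.2.1 := by
  rw [K.pr, fst_eq h.1, ← (G_R h).2]
  refine Prod.ext (N.lam (K.ζ p.2)) (Prod.ext ?_ (congrArg τ.η (τ.coe_pq (G_R h).1)))
  change A.e i0 (N.F _).x = _
  rw [N.x, rinv (ball_subset_ball A.hR.le (N.sW _ (K.inW _ h.1).1).2.2)]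

theorem key (h : v ∈ K.V) : ∀ᶠ p in 𝓝 ((0, v) : K.Pa), p ∈ K.P ∧ K.ζ (K.ρ (K.y p)) = K.y p ∧
    Same (A.res B.r B.h1 B.h2) (K.G p) (N.F (K.y p)) := by
  have a := P_open.mem_nhds (P_zero h)
  have c : Tendsto K.y (𝓝 (0, v)) (𝓝 (K.ζ v)) :=
    y_zero gf h ▸ ((d_y gf).continuousOn.continuousAt a).tendsto
  filter_upwards [a, c.eventually (K.zr v h), c.eventually (N.op.mem_nhds (K.inW v h).1)]
    with p k1 k2 k3
  have := N.rcv _ B.r B.h1 le_rfl _ (G_iso gf k1).1 (G_R k1).1 (px k1.1).1 (G_iso gf k1).2.2 k3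
  exact ⟨k1, k2 this.1, this.2⟩

theorem key_iso (h : v ∈ K.V) :
    ∀ᶠ p in 𝓝 ((0, v) : K.Pa), Iso A τ.H (K.Z (K.ρ (K.y p))) (K.Z p.2) :=
  (key gf h).mono fun p k => by
    rw [Z, k.2.1]
    exact Iso.trans (same_iso (same_symm k.2.2)) ⟨_, _, _, _, _, mul_mem (mem_H p) (one_mem _),
      IsoBy.trans (G_iso gf k.1).2.1 (isoBy_act _ _)⟩

end Zc

end Vale.Agent.P275SL
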