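import Vale.Agent.P275SL.Act

/-!
# P275, Kuranishi theory: the local action is free to first order; the slice
-/

set_option linter.unusedSectionVars false

open scoped Topology Matrix.Norms.Operator
open Set Filter Metric Matrix
open Vale.Agent.P275GC Vale.Agent.P275GC.At Vale.Agent.P275MO Vale.Agent.P275MB
open Vale.Agent.P275NA (Fm Cy Mn fc)

noncomputable section

namespace Vale.Agent.P275SL

variable {C : Type} [TopologicalSpace C] {n : ℕ} {A : At C} {l : Cy A ℂ} {τ : Ty n}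
  {z0 : Dat C A.N n} {i0 : Fin A.N} {ε : ℝ} {B : Vb A l z0.g i0 (A.e i0 z0.x) ε}
  {N : Cn A l τ z0 i0 ε B}

theorem der0 {R : Type} [NormedRing R] [NormedAlgebra ℂ R] {u : ℂ → R} {f P : R}
    (hu : HasDerivAt u 0 0) (e : ∀ᶠ t in 𝓝 (0 : ℂ), (1 + t • f) * u t = u 0 + t • P) :
    f * u 0 = P := by
  have a := (((hasDerivAt_id (0 : ℂ)).smul_const f).const_add 1).mul hu
  have b := ((hasDerivAt_id (0 : ℂ)).smul_const P).const_add (u 0)
  simpa using (a.congr_of_eventuallyEq (EventuallyEq.symm e)).unique b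

namespace Zc

variable (K : Zc N)

/-- the base point -/
abbrev v0 : Bq τ × Cv K.D := K.ρ (yy N 0 z0)

/-- the local action -/
def α (p : K.Pa) : Bq τ × Cv K.D := K.ρ (K.y p)

variable {K} (gf : GF n (A.res B.r B.h1 B.h2) l)
include gf

theorem α_zero {v : Bq τ × Cv K.D} (h : v ∈ K.V) : K.α (0, v) = v := by
  rw [α, y_zero gf h, K.rz v h]

theorem c_α : ContDiffAt ℂ 1 K.α (0, K.v0) :=
  K.cρ.contDiffAt.comp _ ((P281.MF.contDiffOn_of_differentiableOn P_open (d_y gf) 1).contDiffAt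
    (P_open.mem_nhds (P_zero K.mem)))

theorem dinj (hn : 0 < n) (hs : SIMP n (A.res B.r B.h1 B.h2) l) (g0 : Good A l z0)
    (st : Stab (A.res B.r B.h1 B.h2) l z0) (hx : z0.x ∈ ((A.res B.r B.h1 B.h2).e i0).source)
    (e0 : Same (A.res B.r B.h1 B.h2) z0 (K.Z K.v0)) (γ : Cv B.m × H0 τ)
    (h : fderiv ℂ K.α (0, K.v0) (γ, 0) = 0) : γ = 0 := by
  let c : ℂ → K.Pa := fun t => (t • γ, K.v0)
  have c0 : c 0 = (0, K.v0) := by simp [c]
  have dc : HasDerivAt c (γ, 0) 0 := (((hasDerivAt_id (0 : ℂ)).smul_const γ).congr_deriv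
    (one_smul _ _)).prodMk (hasDerivAt_const (0 : ℂ) K.v0)
  have ev := (c0 ▸ dc.continuousAt.tendsto).eventually (key gf K.mem)
  have y0 : K.y (c 0) = yy N 0 z0 := by rw [c0, y_zero gf K.mem, K.base]
  have d1 := (((c_α gf).differentiableAt one_ne_zero).hasFDerivAt.comp_hasDerivAt_of_eq 0 dc
    c0.symm).congr_deriv h
  have d2 := ((K.dζ.differentiableAt (K.op.mem_nhds K.mem)).hasFDerivAt.comp_hasDerivAt_of_eq 0 d1
    (by rw [Function.comp, c0, α_zero gf K.mem])).congr_deriv (ContinuousLinearMap.map_zero _)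
  have dy : HasDerivAt (fun t => K.y (c t)) 0 0 :=
    d2.congr_of_eventuallyEq (ev.mono fun t a => a.2.1.symm)
  have eΦ : ∀ t, c t ∈ K.P → ∀ i, ∀ w ∈ ball (0 : ℂ) B.r,
      B.Φ (K.gp (c t)) i w = 1 + t • B.gf γ.1 i w := fun t a i w b => by
    have e : K.gp (c t) = (t • γ.1, 0) := Prod.ext rfl (congrArg Prod.fst K.base)
    rw [e, (B.lin _ (e ▸ a.2.1)).2 i w b, map_smul]
    rfl
  have hm : Hom (A.res B.r B.h1 B.h2) z0 z0 (B.gf γ.1) := by
    refine ⟨rfl, rfl, (B.ghol _).res, fun i j w a => ?_, fun i w a => ?_⟩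
    · exact (B.glaw _ i j w (res_O.1 a).1).trans (one_smul _ _)
    have du := ((N.ha i w a).hasFDerivAt.comp_hasDerivAt_of_eq 0 dy y0.symm).congr_deriv
      (ContinuousLinearMap.map_zero _)
    have u0 : (N.F (K.y (c 0))).a i w = z0.a i w := by rw [y0, ← K.base]; exact e0.a i w a
    have := der0 (f := B.gf γ.1 i w)
      (P := z0.lam • deriv (B.gf γ.1 i) w + z0.a i w * B.gf γ.1 i w) du (ev.mono fun t k => ?_)
    · exact this.symm.trans (congrArg (_ * ·) u0)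
    have a' : w ∈ off (A.res B.r B.h1 B.h2) (K.G (c t)).x i := by
      rwa [show (K.G (c t)).x = z0.x from e0.x]
    have e1 := (G_iso gf k.1).2.1.con i w a'
    have e2 : deriv (B.Φ (K.gp (c t)) i) w = t • deriv (B.gf γ.1 i) w :=
      (((((B.ghol γ.1 i).differentiableAt (isOpen_ball.mem_nhds (off_res a).1)).hasDerivAt.const_smul
        t).const_add 1).congr_of_eventuallyEq
        (eventually_of_mem (isOpen_ball.mem_nhds a.1) (eΦ t k.1 i))).deriv
    rw [e2, eΦ t k.1 i w a.1, ← k.2.2.a i w a', show (K.G (c t)).lam = z0.lam from e0.lam,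
      show ((K.Z (c t).2).act (1 + (c t).1.2)).a i w = z0.a i w from e0.a i w a] at e1
    change _ * (N.F (K.y (c t))).a i w = (N.F (K.y (c 0))).a i w + _
    rw [← e1, u0, smul_add, smul_comm, mul_add, mul_one, mul_smul_comm]
    abel
  obtain ⟨a, ha⟩ := (hs _ _ _ (Good.res g0) (Good.res g0) st st hm).2 rfl
  have u0 : (K.y (c 0)).2.2.2.1 = z0.σ i0 := by rw [y0]; rfl
  have ds := der0 (u := fun t => (K.y (c t)).2.2.2.1) (f := a • 1) (P := z0.σ i0 * γ.2)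
    dy.snd.snd.snd.fst (ev.mono fun t k => by
      have e1 := (G_iso gf k.1).2.1.fr i0 (by rwa [show (K.G (c t)).x = z0.x from e0.x])
      rw [show (K.G (c t)).x = z0.x from e0.x, eΦ t k.1 i0 _ (map_src hx), ha i0 _ (map_src hx),
        show ((K.Z (c t).2).act (1 + (c t).1.2)).σ i0 = z0.σ i0 * (1 + t • γ.2) from
          congrArg (· * _) (e0.σ i0 hx), mul_one, mul_add, mul_one, mul_smul_comm] at e1
      exact e1.trans (by rw [u0]))
  have eX : (γ.2 : Mn n) = a • 1 := by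
    refine ((Matrix.isUnit_iff_isUnit_det _).2 (g0.fr i0 hx.1).isUnit).mul_left_cancel ?_
    rw [← ds, u0, smul_mul_assoc, mul_smul_comm, one_mul, mul_one]
  have a0 : a = 0 := by
    have : (γ.2 : Mn n).trace = 0 := γ.2.2.2
    simpa [eX, hn.ne'] using this
  refine Prod.ext (B.ginj _ fun i w b => ?_) (Subtype.ext (by simp [eX, a0]))
  obtain ⟨j, k1, k2⟩ := ex_unit b i
  have := B.glaw γ.1 i j w k1
  rw [ha j _ (unit_r B.h1 k2), a0, zero_smul, mul_zero, smul_zero] at this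
  rw [← mul_one (B.gf _ i w), ← g0.cc.inv k1, ← mul_assoc, this, zero_mul]

/-- the slice -/
theorem ex_sl [T2Space C] (hn : 0 < n) (hs : SIMP n (A.res B.r B.h1 B.h2) l)
    (hl : LIMH n (A.res B.r B.h1 B.h2) l) (g0 : Good A l z0)
    (st : Stab (A.res B.r B.h1 B.h2) l z0) (hx : z0.x ∈ ((A.res B.r B.h1 B.h2).e i0).source)
    (e0 : Same (A.res B.r B.h1 B.h2) z0 (K.Z K.v0)) :
    ∃ (D : ℕ) (ι : Bq τ × Cv D → Bq τ × Cv K.D) (ρ : Bq τ × Cv K.D → Bq τ × Cv D)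
      (W : Set (Bq τ × Cv D)), IsOpen W ∧ ρ K.v0 ∈ W ∧ ι (ρ K.v0) = K.v0 ∧ Differentiable ℂ ι ∧
      (∀ w, (ι w).1 = w.1) ∧ (∀ w ∈ W, ι w ∈ K.V ∧ DifferentiableAt ℂ ρ (ι w) ∧ ρ (ι w) = w ∧
        ∀ᶠ v in 𝓝 (ι w), Iso A τ.H (K.Z (ι (ρ v))) (K.Z v)) ∧
      ∀ w ∈ W, ∀ w' ∈ W, Iso A τ.H (K.Z (ι w)) (K.Z (ι w')) → w = w' := by
  have hV := K.op.mem_nhds K.mem
  obtain ⟨D, ι, κ, ρ, k1, k2, k3, k4, k5, k6, k7, k8⟩ := slb _ _ K.D K.α K.v0 (c_α gf)
    (eventually_of_mem hV fun v => α_zero gf)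
    (eventually_of_mem (P_open.mem_nhds (P_zero K.mem)) fun p => fst_y)
    (dinj gf hn hs g0 st hx e0)
  have ci : Tendsto ι (𝓝 (ρ K.v0)) (𝓝 K.v0) := by
    have := k1.continuous.tendsto (ρ K.v0)
    rwa [k4] at this
  have ck : Tendsto (fun v => ((κ v, ι (ρ v)) : K.Pa)) (𝓝 K.v0) (𝓝 (0, K.v0)) :=
    (k5 ▸ k2.continuousAt.tendsto).prodMk_nhds (ci.comp k3.continuousAt.tendsto)
  have e1 : ∀ᶠ v in 𝓝 K.v0, Iso A τ.H (K.Z (ι (ρ v))) (K.Z v) := by
    filter_upwards [ck.eventually (key_iso gf K.mem), k7, hV] with v a b c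
    rw [α] at b
    rw [b] at a
    exact Iso.symm (good c) a
  have e2 : ∀ᶠ w in 𝓝 (ρ K.v0), ρ (ι w) = w := by
    filter_upwards [(Continuous.prodMk_right 0).continuousAt.eventually k8, ci.eventually hV]
      with w a b
    rwa [α_zero gf b] at a
  have e3 : ∀ᶠ p in 𝓝 (ρ K.v0, ρ K.v0), Iso A τ.H (K.Z (ι p.1)) (K.Z (ι p.2)) → p.1 = p.2 := by
    obtain ⟨M, hM, M3, hM3, k9⟩ := mem_nhds_prod_iff.1 k8
    obtain ⟨M1, hM1, M2, hM2, k10⟩ := (mem_nhds_prod_iff (x := 0) (y := 0)).1 hM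
    obtain ⟨δ, hδ, k11⟩ := B.uni M1 hM1
    obtain ⟨δ', hδ', k12⟩ := Metric.mem_nhds_iff.1 hM2
    have cs : ∀ᶠ w in 𝓝 (ρ K.v0), ‖(K.ζ (ι w)).1‖ < δ := by
      have := ((K.dζ.continuousOn.continuousAt hV).tendsto.comp ci).fst_nhds
      rw [K.base] at this
      exact this.eventually (eventually_of_mem (ball_mem_nhds 0 hδ) fun _ => mem_ball_zero_iff.1)
    have t1 := (continuous_fst.tendsto (ρ K.v0, ρ K.v0)).eventually
      (cs.and (e2.and (ci.eventually hV)))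
    have t2 := (continuous_snd.tendsto (ρ K.v0, ρ K.v0)).eventually
      (cs.and ((ci.eventually hV).and hM3))
    have i0 := same_isoBy (same_symm e0)
    filter_upwards [t1, t2, near_one (H := τ.H) hn hs hl
      (FamOn.comp (fam (K := K)).toFamOn k1.continuous.continuousOn (mapsTo_preimage ι K.V))
      (ci hV) (by rw [k4]; exact Stab.iso (good K.mem) (Good.res g0) i0.toHom i0.det st)
      (lt_min hδ hδ')] with p a b c d
    obtain ⟨φ, h, m1, m2, m3, m4, m5⟩ := c (iso_res.2 d)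
    obtain ⟨n1, n2, -⟩ := gf.2.1 _ _ _ _ (good a.2.2) (good b.2.1) m3
    rw [N.g, N.g] at n2
    obtain ⟨γ, o1, o2, o3, o4⟩ := k11 _ _ φ b.1 a.1 n2 fun i w e => (m5 i w e).trans_le
      (min_le_left _ _)
    let X : H0 τ := ⟨h - 1, sub_mem m1 (one_mem τ.H), show (h - 1).trace = 0 by simp [m2]⟩
    have eX : (1 + X : Mn n) = h := add_sub_cancel _ _
    have := y_eq gf (p := ((γ, X), ι p.2)) ⟨b.2.1, o2, eX ▸ n1⟩ a.2.2 o3
      (eX ▸ isoBy_congr m3 o4)
    have q : ρ (K.ρ (K.y ((γ, X), ι p.2))) = p.2 := k9 (mk_mem_prod (k10 (mk_mem_prod o1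
      (k12 (a := X) (mem_ball_zero_iff.2 (m4.trans_le (min_le_right _ _)))))) b.2.2)
    rwa [this, K.rz _ a.2.2, a.2.1] at q
  rw [nhds_prod_eq] at e3
  obtain ⟨W1, hW1, k9⟩ := mem_prod_self_iff.1 e3
  obtain ⟨W, a, b, c⟩ := _root_.eventually_nhds_iff.1 ((ci.eventually hV).and
    ((ci.eventually (k3.eventually (by simp))).and (e2.and
      ((ci.eventually e1.eventually_nhds).and hW1))))
  exact ⟨D, ι, ρ, W, b, c, k4, k1.differentiable one_ne_zero, k6, fun w h => ⟨(a w h).1,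
    (a w h).2.1.differentiableAt one_ne_zero, (a w h).2.2.1, (a w h).2.2.2.1⟩,
    fun w h w' h' => k9 (mk_mem_prod (a w h).2.2.2.2 (a w' h').2.2.2.2)⟩

end Zc

end Vale.Agent.P275SL
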