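import Vale.Agent.P275SL.Der

/-!
# P275, Kuranishi theory: the local Kuranishi family of a stable object
-/

set_option linter.unusedSectionVars false

open scoped Topology Matrix.Norms.Operator
open Set Filter Metric Matrix
open Vale.Agent.P275GC Vale.Agent.P275GC.At Vale.Agent.P275MO Vale.Agent.P275MB
open Vale.Agent.P275NA (Fm Cy Mn fc)

noncomputable section

namespace Vale.Agent.P275SL

variable {C : Type} [TopologicalSpace C] {n : ℕ} {A : At C} {l : Cy A ℂ} {τ : Ty n}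
  {z0 : Dat C A.N n} {i0 : Fin A.N} {ε : ℝ} {B : Vb A l z0.g i0 (A.e i0 z0.x) ε}
  {N : Cn A l τ z0 i0 ε B} {r' : ℝ} {h1' : 1 < r'} {h2' : r' ≤ B.r}

theorem bun_mono (h2' : r' ≤ B.r) {s : Cv B.k} (h : s ∈ B.W) :
    Bun (A.res r' h1' (h2'.trans B.h2)) l (fc A (B.F s) z0.g) :=
  have : Bun ((A.res B.r B.h1 B.h2).res r' h1' h2') l (fc A (B.F s) z0.g) :=
    ⟨(B.bun s h).cc.res, fun i j w a => (B.bun s h).det i j w (res_O.1 a).1⟩
  (rr h1' h2' fun E => Bun (E.at h1') l (fc A (B.F s) z0.g)).1 this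

theorem hfam_sub {T : Type} [NormedAddCommGroup T] [NormedSpace ℂ T] {G : T → Dat C A.N n}
    {V V' : Set T} (f : HFamOn A l G V) (m : V' ⊆ V) : HFamOn A l G V' :=
  ⟨FamOn.sub f.toFamOn m, f.hlam.mono m, fun i => (f.hx i).mono fun _ a => ⟨m a.1, a.2⟩,
    f.hR.mono m, fun i j => (f.hg i j).mono fun _ a => ⟨m a.1, a.2⟩,
    fun i => (f.ha i).mono fun _ a => ⟨m a.1, a.2⟩, fun i => (f.hσ i).mono fun _ a => ⟨m a.1, a.2⟩⟩

namespace Zc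

variable {K : Zc N} {v : Bq τ × Cv K.D} (gf : GF n (A.res r' h1' (h2'.trans B.h2)) l)
include gf

theorem tail {T : Type} [TopologicalSpace T] {G : T → Dat C A.N n} {s : T → Cv B.k}
    {Φ : T → Fm A (Mn n)} {V : Set T} {t0 : T} (hv : v ∈ K.V) (hV : V ∈ 𝓝 t0)
    (e : Same (A.res r' h1' (h2'.trans B.h2)) (K.Z v) (G t0)) (s0 : s t0 = (K.ζ v).1)
    (Φ0 : ∀ i, ∀ w ∈ ball (0 : ℂ) r', Φ t0 i w = 1)
    (h : ∀ t ∈ V, Good (A.res r' h1' (h2'.trans B.h2)) l (G t) ∧ (G t).R ∈ τ.q ∧ Px N (G t).x ∧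
      s t ∈ B.W ∧ BIso (A.res r' h1' (h2'.trans B.h2)) (fc A (B.F (s t)) z0.g) (G t).g (Φ t))
    (c : ContinuousOn (fun t => yy N (s t) (gauge A (Φ t) (G t))) V) :
    K.ρ (yy N (s t0) (gauge A (Φ t0) (G t0))) = v ∧
      ∀ᶠ t in 𝓝 t0, Iso A τ.H (K.Z (K.ρ (yy N (s t) (gauge A (Φ t) (G t))))) (G t) := by
  have e1 : Same (A.res r' h1' (h2'.trans B.h2)) (K.Z v) (gauge A (Φ t0) ((G t0).act 1)) :=
    (gf.2.1 _ _ _ _ (Good.mono (good hv) h1' h2') (h t0 (mem_of_mem_nhds hV)).1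
      (isoBy_congr (same_isoBy e) Φ0)).2.2
  rw [act_one] at e1
  have e2 : yy N (s t0) (gauge A (Φ t0) (G t0)) = K.ζ v := by
    rw [s0, ← con hv]
    exact yy_same (px hv) e1 _
  have c' := (c.continuousAt hV).tendsto
  rw [e2] at c'
  refine ⟨by rw [e2, K.rz v hv], ?_⟩
  filter_upwards [hV, c'.eventually (K.zr v hv), c'.eventually (N.op.mem_nhds (K.inW v hv).1)]
    with t a k2 k3
  obtain ⟨b1, b2, b3, b4, b5⟩ := h t a
  obtain ⟨d1, d2, d3⟩ := gf.1 _ _ _ b1 (bun_mono h2' b4) b5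
  have := N.rcv _ r' h1' h2' _ d1 b2 b3.1 d3 k3
  rw [Z, k2 this.1]
  exact Iso.trans (same_iso (same_symm this.2)) ⟨_, _, _, _, _, one_mem _, d2⟩

theorem vc {T : Type} [TopologicalSpace T] {G : T → Dat C A.N n} {V : Set T} {t0 : T}
    (hv : v ∈ K.V) (hV : V ∈ 𝓝 t0) (f : FamOn (A.res r' h1' (h2'.trans B.h2)) l G V)
    (hq : ∀ t ∈ V, (G t).R ∈ τ.q) (e : Same (A.res r' h1' (h2'.trans B.h2)) (K.Z v) (G t0)) :
    ∃ u : T → Bq τ × Cv K.D, ContinuousAt u t0 ∧ u t0 = v ∧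
      ∀ᶠ t in 𝓝 t0, Iso A τ.H (K.Z (u t)) (G t) := by
  have hp : ∀ᶠ t in 𝓝 t0, Px N (G t).x := (f.x.continuousAt hV).eventually (e.x ▸ px hv).ev
  obtain ⟨V', a, s, Φ, k1, k2, k3, k4, k5, k6⟩ := B.vc _ (N.sW _ (K.inW v hv).1).1 T
    (fun t => (G t).g) _ t0 r' h1' h2' (inter_mem hV hp)
    (fun t a => ⟨(f.good t a.1).cc, (f.good t a.1).det⟩)
    (fun i j => (f.g i j).mono fun _ a => ⟨a.1.1, a.2⟩)
    fun i j w a => (e.g i j w a).trans (by rw [N.g])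
  have f' : FamOn (A.res r' h1' (h2'.trans B.h2)) l (fun t => gauge A (Φ t) ((G t).act 1)) V' :=
    gf.2.2.1 T G _ Φ (fun _ => 1) V' (FamOn.sub f fun t a => (k1 a).1) continuousOn_const
      k4 fun t a => ⟨by simp, bun_mono h2' (k6 t a).1, (k6 t a).2⟩
  simp only [act_one] at f'
  have c := yy_cont (N := N) (h2' := h2') f' k2 fun t a => ⟨(k6 t a).1, (k1 a).2,
    (gf.1 _ _ _ (f.good t (k1 a).1) (bun_mono h2' (k6 t a).1) (k6 t a).2).2.2⟩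
  exact ⟨_, K.cρ.continuous.continuousAt.comp (c.continuousAt a), tail (h2' := h2') gf hv a e k3 k5
    (fun t a => ⟨f.good t (k1 a).1, hq t (k1 a).1, (k1 a).2, k6 t a⟩) c⟩

theorem vh {T : Type} [NormedAddCommGroup T] [NormedSpace ℂ T] [FiniteDimensional ℂ T]
    {G : T → Dat C A.N n} {V : Set T} {t0 : T}
    (hv : v ∈ K.V) (hV : V ∈ 𝓝 t0) (f : HFamOn (A.res r' h1' (h2'.trans B.h2)) l G V)
    (hq : ∀ t ∈ V, (G t).R ∈ τ.q) (e : Same (A.res r' h1' (h2'.trans B.h2)) (K.Z v) (G t0)) :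
    ∃ u : T → Bq τ × Cv K.D, DifferentiableAt ℂ u t0 ∧ u t0 = v ∧
      ∀ᶠ t in 𝓝 t0, Iso A τ.H (K.Z (u t)) (G t) := by
  have hp : ∀ᶠ t in 𝓝 t0, Px N (G t).x := (f.x.continuousAt hV).eventually (e.x ▸ px hv).ev
  obtain ⟨V', s, Φ, o, a, k1, k2, k3, k4, k5, k6⟩ := B.vh _ (N.sW _ (K.inW v hv).1).1 T
    (fun t => (G t).g) _ t0 r' h1' h2' (inter_mem hV hp)
    (fun t a => ⟨(f.good t a.1).cc, (f.good t a.1).det⟩)
    (fun i j => (f.hg i j).mono fun _ a => ⟨a.1.1, a.2⟩)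
    fun i j w a => (e.g i j w a).trans (by rw [N.g])
  have f' : HFamOn (A.res r' h1' (h2'.trans B.h2)) l (fun t => gauge A (Φ t) ((G t).act 1)) V' :=
    gf.2.2.2 T G _ Φ (fun _ => 1) V' o (hfam_sub f fun t a => (k1 a).1)
      (differentiableOn_const _) k4 fun t a => ⟨by simp, bun_mono h2' (k6 t a).1, (k6 t a).2⟩
  simp only [act_one] at f'
  have c := yy_diff (N := N) (h2' := h2') o f' k2 fun t a => ⟨(k6 t a).1, (k1 a).2,
    (gf.1 _ _ _ (f.good t (k1 a).1) (bun_mono h2' (k6 t a).1) (k6 t a).2).2.2⟩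
  exact ⟨_, (K.cρ.differentiable one_ne_zero _).comp t0 (c.differentiableAt (o.mem_nhds a)),
    tail (h2' := h2') gf hv (o.mem_nhds a) e k3 k5
      (fun t a => ⟨f.good t (k1 a).1, hq t (k1 a).1, (k1 a).2, k6 t a⟩) c.continuousOn⟩

end Zc

/-- regrouping of the parameters -/
def as1 {D : ℕ} (w : Pm τ.m D) : Bq τ × Cv D := ((w.1, w.2.1, w.2.2.1), w.2.2.2)

/-- regrouping of the parameters -/
def as2 {D : ℕ} (v : Bq τ × Cv D) : Pm τ.m D := (v.1.1, v.1.2.1, v.1.2.2, v.2)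

theorem d_as1 {D : ℕ} : Differentiable ℂ (as1 (τ := τ) (D := D)) := by
  unfold as1; fun_prop

theorem d_as2 {D : ℕ} : Differentiable ℂ (as2 (τ := τ) (D := D)) := by
  unfold as2; fun_prop

/-- **the local Kuranishi family** -/
theorem lku {d : ℤ} (hS : Std A l n d) (vb : VB n A l) (cn : CN n A l)
    (gf : ∀ r h1 h2, GF n (A.res r h1 h2) l) (simp : ∀ r h1 h2, SIMP n (A.res r h1 h2) l)
    (limh : ∀ r h1 h2, LIMH n (A.res r h1 h2) l) : LKU n A l := by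
  intro τ z0 g0 st hq
  have := hS.t2
  obtain ⟨i0, hi, hi1⟩ := A.cov z0.x
  have hε : 0 < (1 - ‖A.e i0 z0.x‖) / 2 := by linarith
  have hε' : ‖A.e i0 z0.x‖ + (1 - ‖A.e i0 z0.x‖) / 2 < 1 := by linarith
  obtain ⟨B⟩ := vb z0.g i0 _ _ ⟨g0.cc, g0.det⟩ hε hε'
  obtain ⟨N⟩ := cn τ z0 i0 _ B g0 st hq hi hε hε'
  obtain ⟨o0, e0⟩ := base_same (N := N) g0 hq hi
  obtain ⟨K⟩ := ex_zc o0
  rw [← K.base] at e0
  obtain ⟨D, ι, ρ, W, k1, k2, k3, k4, k5, k6, k7⟩ := Zc.ex_sl (K := K) (gf _ _ _)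
    (zero_lt_two.trans_le hS.two) (simp _ _ _) (limh _ _ _) g0 ((stab_res g0).2 st)
    ⟨hi, unit_r B.h1 hi1⟩ e0
  have e : ∀ w : Pm τ.m D, as1 w ∈ W → (w.1, w.2.1, w.2.2.1) = ((K.ζ (ι (as1 w))).2.1,
      (K.ζ (ι (as1 w))).2.2.1, τ.η (K.ζ (ι (as1 w))).2.2.2.2.1) := fun w a =>
    (k5 (as1 w)).symm.trans (Zc.fst_eq (k6 _ a).1)
  have tl : ∀ w : Pm τ.m D, as1 w ∈ W → ∀ (T : Type) [TopologicalSpace T] (G : T → Dat C A.N n)
      (t0 : T) (u : T → Bq τ × Cv K.D), ContinuousAt u t0 → u t0 = ι (as1 w) →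
      (∀ᶠ t in 𝓝 t0, Iso A τ.H (K.Z (u t)) (G t)) → as2 (ρ (u t0)) = w ∧
        ∀ᶠ t in 𝓝 t0, Iso A τ.H (K.Z (ι (as1 (as2 (ρ (u t)))))) (G t) :=
    fun w a T _ G t0 u c e f => ⟨by rw [e, (k6 _ a).2.2.1]; rfl,
      ((c.eventually (e ▸ (k6 _ a).2.2.2)).and f).mono fun t b => Iso.trans b.1 b.2⟩
  refine ⟨⟨D, i0, B.r, B.h1, B.h2, as1 ⁻¹' W, k1.preimage d_as1.continuous,
    fun w => K.Z (ι (as1 w)), as2 (ρ K.v0), k2, (congrArg K.Z k3).symm ▸ e0,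
    N.fam _ _ _ (k1.preimage d_as1.continuous) (K.dζ.comp (k4.comp d_as1).differentiableOn
      fun w a => (k6 _ a).1) fun w a => K.inW _ (k6 _ a).1,
    fun w _ => N.R _ ▸ Subtype.mem _, fun w a => (N.lam _).trans (congrArg (·.1) (e w a)).symm,
    fun w a => ?_, fun w a => by rw [N.R]; exact (congrArg (·.2.2) (e w a)).symm,
    fun w a T _ G V t0 r' h1' h2' hV f hq s => ?_, fun w a T _ _ _ G V t0 r' h1' h2' hV f hq s => ?_,
    fun w a w' a' f => congrArg as2 (k7 _ a _ a' f)⟩⟩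
  · rw [show w.2.1 = _ from congrArg (·.2.1) (e w a)]
    exact ⟨ball_subset_ball B.h1.le (N.sW _ (K.inW _ (k6 _ a).1).1).2.2, N.x _⟩
  · obtain ⟨u, c, e, f⟩ := Zc.vc (h2' := h2') (gf _ _ _) (k6 _ a).1 hV f hq s
    exact ⟨fun t => as2 (ρ (u t)), (d_as2 _).continuousAt.comp
      ((k6 _ a).2.1.continuousAt.comp_of_eq c e), tl w a T G t0 u c e f⟩
  · obtain ⟨u, c, e, f⟩ := Zc.vh (h2' := h2') (gf _ _ _) (k6 _ a).1 hV f hq s
    have := (k6 _ a).2.1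
    exact ⟨fun t => as2 (ρ (u t)), (d_as2 _).comp t0 (DifferentiableAt.comp t0 (e ▸ this) c),
      tl w a T G t0 u c.continuousAt e f⟩

end Vale.Agent.P275SL
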