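import Vale.Agent.P275SL.Sl
import Vale.Agent.P275MB.Iso

/-!
# P275, Kuranishi theory: equal objects; isomorphisms near a stable object are near the identity
-/

set_option linter.unusedSectionVars false

open scoped Topology Matrix.Norms.Operator
open Set Filter Metric Matrix
open Vale.Agent.P275GC Vale.Agent.P275GC.At Vale.Agent.P275MO Vale.Agent.P275MB
open Vale.Agent.P275NA (Fm Cy Mn)

noncomputable section

namespace Vale.Agent.P275SL

variable {C : Type} [TopologicalSpace C] {n : ℕ} {A : At C} {l : Cy A ℂ}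
  {z z' z'' : Dat C A.N n} {φ ψ : Fm A (Mn n)} {h : Mn n} {r r' : ℝ} {h1 : 1 < r} {h2 : r ≤ A.R}
  {H : Subalgebra ℂ (Mn n)}

theorem same_symm (e : Same A z z') : Same A z' z :=
  ⟨e.lam.symm, e.x.symm, fun i j w a => (e.g i j w a).symm, fun i w a => (e.a i w (e.x ▸ a)).symm,
    fun i a => (e.σ i (e.x ▸ a)).symm, e.R.symm⟩

theorem same_trans (e : Same A z z') (e' : Same A z' z'') : Same A z z'' :=
  ⟨e'.lam.trans e.lam, e'.x.trans e.x, fun i j w a => (e'.g i j w a).trans (e.g i j w a),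
    fun i w a => (e'.a i w (e.x ▸ a)).trans (e.a i w a),
    fun i a => (e'.σ i (e.x ▸ a)).trans (e.σ i a), e'.R.trans e.R⟩

theorem same_isoBy (e : Same A z z') : IsoBy A z z' (fun _ _ => 1) 1 :=
  ⟨⟨e.lam, e.x, fun _ => differentiableOn_const _, fun i j w a => by simp [e.g i j w a],
    fun i w a => by rw [dconst]; simp [e.a i w a]⟩, fun _ _ _ => by simp,
    fun i a => by simp [e.σ i a]⟩

theorem same_iso (e : Same (A.res r h1 h2) z z') : Iso A H z z' :=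
  ⟨r, h1, h2, _, 1, one_mem _, same_isoBy e⟩

theorem isoBy_congr (f : IsoBy A z z' φ h) (e : ∀ i, ∀ w ∈ ball (0 : ℂ) A.R, ψ i w = φ i w) :
    IsoBy A z z' ψ h :=
  ⟨⟨f.lam, f.x, fun i => (f.hol i).congr (e i), fun i j w a => by
    rw [e i w a.1, e j _ (tr_ball a), f.law i j w a], fun i w a => by
    have b : deriv (ψ i) w = deriv (φ i) w := Filter.EventuallyEq.deriv_eq
      (eventually_of_mem (isOpen_ball.mem_nhds a.1) (e i))
    rw [e i w a.1, b, f.con i w a]⟩,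
    fun i w a => e i w a ▸ f.det i w a, fun i a => by rw [e i _ (map_src a), f.fr i a]⟩

theorem act_one (z : Dat C A.N n) : z.act 1 = z := by simp [Dat.act]

/-- isomorphisms between objects near a stable one can be normalised to be near the identity -/
theorem near_one (hn : 0 < n) (hs : SIMP n A l) (hl : LIMH n A l) {T : Type} [TopologicalSpace T]
    {F : T → Dat C A.N n} {V : Set T} {t : T} (hF : FamOn A l F V) (hV : V ∈ 𝓝 t)
    (st : Stab A l (F t)) {δ : ℝ} (hδ : 0 < δ) : ∀ᶠ p : T × T in 𝓝 (t, t),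
      Iso A H (F p.1) (F p.2) → ∃ φ h, h ∈ H ∧ h.trace = n ∧ IsoBy A (F p.1) (F p.2) φ h ∧
        ‖h - 1‖ < δ ∧ ∀ i w, ‖w‖ ≤ 1 → ‖φ i w - 1‖ < δ := by
  by_contra hc
  have ht := mem_of_mem_nhds hV
  let P : T × T → Prop := fun p => (p.1 ∈ V ∧ p.2 ∈ V) ∧ ¬ (Iso A H (F p.1) (F p.2) →
    ∃ φ h, h ∈ H ∧ h.trace = n ∧ IsoBy A (F p.1) (F p.2) φ h ∧
      ‖h - 1‖ < δ ∧ ∀ i w, ‖w‖ ≤ 1 → ‖φ i w - 1‖ < δ)
  have h0 : ∃ᶠ p in 𝓝 (t, t), P p :=
    Eventually.and_frequently (prod_mem_nhds hV hV) (not_eventually.1 hc)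
  have : (comap (Subtype.val : {p // P p} → T × T) (𝓝 (t, t))).NeBot :=
    comap_neBot_iff_frequently.2 (h0.mono fun p a => ⟨⟨p, a⟩, rfl⟩)
  let U := Ultrafilter.of (comap (Subtype.val : {p // P p} → T × T) (𝓝 (t, t)))
  have hU : Tendsto (Subtype.val : {p // P p} → T × T) U (𝓝 (t, t)) :=
    tendsto_comap.mono_left (Ultrafilter.of_le _)
  have u1 : Tendsto (fun j : {p // P p} => j.1.1) U (𝓝[V] t) :=
    tendsto_nhdsWithin_iff.2 ⟨hU.fst_nhds, .of_forall fun j => j.2.1.1⟩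
  have u2 : Tendsto (fun j : {p // P p} => j.1.2) U (𝓝[V] t) :=
    tendsto_nhdsWithin_iff.2 ⟨hU.snd_nhds, .of_forall fun j => j.2.1.2⟩
  choose φ h k1 k2 using fun j : {p // P p} =>
    (iso_iff (hF.good _ j.2.1.1) (hF.good _ j.2.1.2)).1 (Classical.not_imp.1 j.2.2).1
  obtain ⟨i, hi, hi1⟩ := A.cov (F t).x
  have z0 : (0 : ℂ) ∈ ball (0 : ℂ) A.R := mem_of_le (by simp)
  have : Nonempty (Fin n) := ⟨⟨0, hn⟩⟩
  obtain ⟨c, ψ, c0, c1, ⟨i', w', c2, c3⟩, c4⟩ := hl T F F V t t _ U _ _ φ hF hF ht ht u1 u2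
    fun j => ⟨(k2 j).toHom, i, 0, z0, fun e => (k2 j).det i 0 z0 (e ▸ det_zero)⟩
  obtain ⟨a, ha⟩ := (hs _ _ ψ (hF.good t ht) (hF.good t ht) st st c1).2 rfl
  have a0 : a ≠ 0 := fun e => c3 (by rw [ha i' w' c2, e, zero_smul])
  have x1 : Tendsto (fun j : {p // P p} => (F j.1.1).x) U (𝓝 (F t).x) := (hF.x t ht).tendsto.comp u1
  have x2 : Tendsto (fun j : {p // P p} => (F j.1.2).x) U (𝓝 (F t).x) := (hF.x t ht).tendsto.comp u2
  have e1 := x1.eventually ((A.e i).open_source.mem_nhds hi)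
  have s1 : Tendsto (fun j : {p // P p} => (F j.1.1).σ i) U (𝓝 ((F t).σ i)) :=
    (hF.σ i t ⟨ht, hi⟩).tendsto.comp (tendsto_nhdsWithin_iff.2 ⟨hU.fst_nhds,
      e1.mono fun j b => ⟨j.2.1.1, b⟩⟩)
  have s2 : Tendsto (fun j : {p // P p} => ((F j.1.2).σ i)⁻¹) U (𝓝 ((F t).σ i)⁻¹) :=
    (P281Z.Hm.an_inv (𝕜 := ℂ) analyticAt_id ((hF.good t ht).fr i hi)).continuousAt.tendsto.comp
      ((hF.σ i t ⟨ht, hi⟩).tendsto.comp (tendsto_nhdsWithin_iff.2 ⟨hU.snd_nhds,
        (x2.eventually ((A.e i).open_source.mem_nhds hi)).mono fun j b => ⟨j.2.1.2, b⟩⟩))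
  have s3 : Tendsto (fun j => c j • φ j i (A.e i (F j.1.1).x)) U (𝓝 (a • 1)) := by
    rw [← ha i _ (map_src hi)]
    exact (c4 i).tendsto_comp ((c1.hol i).continuousOn _ (map_src hi)) (map_src hi)
      (tendsto_nhdsWithin_iff.2 ⟨((A.e i).continuousAt hi).tendsto.comp x1,
        e1.mono fun j b => map_src b⟩)
  have s4 : Tendsto (fun j => c j • h j) U (𝓝 (a • 1)) := by
    have := (s2.mul s3).mul s1
    rw [mul_smul_comm, mul_one, smul_mul_assoc,
      nonsing_inv_mul _ ((hF.good t ht).fr i hi).isUnit] at this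
    refine this.congr' (e1.mono fun j b => ?_)
    simp only [IsoBy.h_eq (hF.good _ j.2.1.2) (k2 j) b, mul_smul_comm, smul_mul_assoc]
  have hn' : (n : ℂ) ≠ 0 := Nat.cast_ne_zero.2 hn.ne'
  have s5 : Tendsto (fun j => trace (c j • h j)) U (𝓝 (a * n)) := by
    simpa [Function.comp_def] using (continuous_id.matrix_trace.tendsto _).comp s4
  have s6 : Tendsto (fun j => (n : ℂ) / trace (c j • h j)) U (𝓝 a⁻¹) := by
    have := (tendsto_const_nhds (x := (n : ℂ))).div s5 (mul_ne_zero a0 hn')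
    rwa [show (n : ℂ) / (a * n) = a⁻¹ by field_simp] at this
  have s7 : ∀ᶠ j in U, ‖((n : ℂ) / trace (c j • h j)) • c j • h j - 1‖ < δ := by
    have := s6.smul s4
    rw [smul_smul, inv_mul_cancel₀ a0, one_smul] at this
    exact (tendsto_iff_norm_sub_tendsto_zero.1 this).eventually (gt_mem_nhds hδ)
  have s8 : ∀ i, ∀ᶠ j in U, ∀ w, ‖w‖ ≤ 1 →
      ‖((n : ℂ) / trace (c j • h j)) • c j • φ j i w - 1‖ < δ := fun i => by
    have b1 := (tendstoLocallyUniformlyOn_iff_tendstoUniformlyOn_of_compact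
      (isCompact_closedBall 0 1)).1 ((c4 i).mono A.unit_sub)
    have b2 : Tendsto (fun q : ℂ × Mn n => ‖q.1 • q.2 - 1‖) (𝓝 (a⁻¹, a • 1)) (𝓝 0) := by
      refine Continuous.tendsto' (by fun_prop) _ _ ?_
      simp [smul_smul, a0]
    obtain ⟨ε, hε, b3⟩ := Metric.eventually_nhds_iff.1 (b2.eventually (gt_mem_nhds hδ))
    filter_upwards [Metric.tendstoUniformlyOn_iff.1 b1 ε hε, Metric.tendsto_nhds.1 s6 ε hε]
      with j b4 b5 w hw
    refine b3 (y := (_, c j • φ j i w)) (max_lt b5 ?_)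
    rw [dist_comm, ← ha i w (mem_of_le hw)]
    exact b4 w (mem_closedBall_zero_iff.2 hw)
  obtain ⟨j, j1, j2, j3⟩ := (s7.and ((eventually_all.2 s8).and
    (s5.eventually_ne (mul_ne_zero a0 hn')))).exists
  exact j.2.2 fun _ => ⟨_, _, H.smul_mem (H.smul_mem (k1 j) _) _, by
    rw [trace_smul, smul_eq_mul, div_mul_cancel₀ _ j3],
    IsoBy.smul (IsoBy.smul (k2 j) (c0 j)) (div_ne_zero hn' j3), j1, j2⟩

end Vale.Agent.P275SL
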