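import Vale.Agent.P275MO.KDefs

/-!
# P275, Kuranishi theory: finite dimensional slices
-/

set_option linter.unusedSectionVars false

open scoped Topology
open Set Filter Function

noncomputable section

namespace Vale.Agent.P275SL

open Vale.Agent.P275MO

variable {E F : Type} [NormedAddCommGroup E] [NormedSpace ℂ E] [FiniteDimensional ℂ E]
  [NormedAddCommGroup F] [NormedSpace ℂ F] [FiniteDimensional ℂ F]

theorem ift1 {f : E → F} {a : E} {L : E →L[ℂ] F} (hf : ContDiffAt ℂ 1 f a)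
    (hL : HasFDerivAt f L a) (hb : Bijective L) : ∃ g : F → E, ContDiffAt ℂ 1 g (f a) ∧
      (∀ᶠ x in 𝓝 a, g (f x) = x) ∧ ∀ᶠ y in 𝓝 (f a), f (g y) = y := by
  have := FiniteDimensional.complete ℂ E
  let e := (LinearEquiv.ofBijective (L : E →ₗ[ℂ] F) hb).toContinuousLinearEquiv
  have h1 : HasFDerivAt f (e : E →L[ℂ] F) a := hL
  have h2 := hf.hasStrictFDerivAt' h1 one_ne_zero
  exact ⟨_, hf.to_localInverse h1 one_ne_zero, h2.eventually_left_inverse,
    h2.eventually_right_inverse⟩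

theorem ex_prod (L : E →L[ℂ] F) (h : Surjective L) :
    ∃ (D : ℕ) (κ : E →L[ℂ] Cv D), Bijective (L.prod κ) := by
  let K := LinearMap.ker (L : E →ₗ[ℂ] F)
  obtain ⟨f, hf⟩ := K.subtype.exists_leftInverse_of_injective K.ker_subtype
  have hf' : ∀ y : K, f y = y := fun y => LinearMap.congr_fun hf y
  let e := (Module.finBasis ℂ K).equivFun
  refine ⟨_, LinearMap.toContinuousLinearMap (e.toLinearMap ∘ₗ f),
    (injective_iff_map_eq_zero _).2 fun y hy => ?_, fun z => ?_⟩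
  · have h1 : f y = 0 := e.map_eq_zero_iff.1 (congrArg Prod.snd hy)
    exact congrArg Subtype.val ((hf' ⟨y, congrArg Prod.fst hy⟩).symm.trans h1)
  · obtain ⟨y, hy⟩ := h z.1
    refine ⟨y + (e.symm z.2 - f y : K), Prod.ext ?_ ?_⟩
    · change L _ = _
      rw [map_add, hy, show L (e.symm z.2 - f y : K) = 0 from (e.symm z.2 - f y).2, add_zero]
    · change e (f _) = _
      rw [map_add, hf', add_sub_cancel, e.apply_symm_apply]

theorem ex_coprod (L : E →L[ℂ] F) (h : Injective L) :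
    ∃ (D : ℕ) (ι : Cv D →L[ℂ] F), Bijective (L.coprod ι) := by
  obtain ⟨K, hK⟩ := (LinearMap.range (L : E →ₗ[ℂ] F)).exists_isCompl
  let e := (Module.finBasis ℂ K).equivFun
  refine ⟨_, LinearMap.toContinuousLinearMap (K.subtype ∘ₗ e.symm.toLinearMap),
    (injective_iff_map_eq_zero _).2 fun y hy => ?_, fun z => ?_⟩
  · have h0 : L y.1 + e.symm y.2 = 0 := hy
    have h1 : L y.1 = 0 := Submodule.disjoint_def.1 hK.disjoint _ ⟨y.1, rfl⟩
      (eq_neg_of_add_eq_zero_left h0 ▸ neg_mem (e.symm y.2).2)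
    rw [h1, zero_add] at h0
    exact Prod.ext (h (h1.trans (map_zero L).symm)) (e.symm.map_eq_zero_iff.1 (Subtype.ext h0))
  · obtain ⟨_, ⟨a, rfl⟩, b, hb, rfl⟩ := Submodule.mem_sup.1 (hK.sup_eq_top ▸ Submodule.mem_top :
      z ∈ LinearMap.range (L : E →ₗ[ℂ] F) ⊔ K)
    exact ⟨(a, e ⟨b, hb⟩), congrArg (fun u : K => L a + u) (e.symm_apply_apply ⟨b, hb⟩)⟩

theorem sla : SLA := by
  intro Y O B _ _ _ _ _ _ _ _ _ ob pr y0 h1 h2 h3
  obtain ⟨D, κ, hκ⟩ := ex_prod ((fderiv ℂ ob y0).prod pr) fun z =>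
    (h3 z.1 z.2).imp fun _ h => Prod.ext h.1 h.2
  obtain ⟨g, g1, g2, g3⟩ := ift1 (f := fun y => (ob y, pr.prod κ y))
    (h1.prodMk (pr.prod κ).contDiff.contDiffAt)
    ((h1.differentiableAt one_ne_zero).hasFDerivAt.prodMk (pr.prod κ).hasFDerivAt)
    ((Equiv.prodAssoc O B (Cv D)).bijective.comp hκ)
  simp only [h2] at g1 g3
  have hc : ContDiffAt ℂ 1 (fun v : B × Cv D => ((0 : O), v)) (pr.prod κ y0) :=
    contDiffAt_const.prodMk contDiffAt_id
  refine ⟨D, fun v => g (0, v), pr.prod κ, g1.comp _ hc, (pr.prod κ).contDiff, ?_, fun _ => rfl,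
    (hc.continuousAt.eventually g3).mono fun v h => Prod.ext_iff.1 h,
    g2.mono fun y h e => e ▸ h⟩
  exact h2 ▸ g2.self_of_nhds

theorem slb : SLB := by
  intro Γ B _ _ _ _ _ _ D α v0 h1 h2 h3 h4
  have hd := (h1.differentiableAt one_ne_zero).hasFDerivAt
  generalize fderiv ℂ α (0, v0) = L at hd h4
  have k1 : ∀ v, L (0, v) = v := fun v => DFunLike.congr_fun
    ((hd.comp v0 (hasFDerivAt_prodMk_right 0 v0)).unique
      ((hasFDerivAt_id v0).congr_of_eventuallyEq h2)) v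
  have k2 : ∀ p, (L p).1 = p.2.1 := fun p => DFunLike.congr_fun
    (hd.fst.unique (((hasFDerivAt_snd (𝕜 := ℂ) (p := ((0 : Γ), v0))).fst).congr_of_eventuallyEq
      h3)) p
  have k3 : ∀ γ v, L (γ, v) = L (γ, 0) + v := fun γ v => by
    rw [← k1 v, ← map_add, k1]
    simp
  obtain ⟨D', j, hj⟩ := ex_coprod
    ((ContinuousLinearMap.snd ℂ _ _).comp (L.comp (ContinuousLinearMap.inl ℂ _ _)))
    ((injective_iff_map_eq_zero _).2 fun γ h => h4 γ (Prod.ext (k2 _) h))
  let J : B × Cv D' →L[ℂ] B × Cv D := (ContinuousLinearMap.id ℂ B).prodMap j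
  let ι : B × Cv D' → B × Cv D := fun w => J w + (0, v0.2)
  have i0 : ι (v0.1, 0) = v0 := by simp [ι, J]
  have i1 : ContDiff ℂ 1 ι := J.contDiff.add contDiff_const
  have i2 : HasFDerivAt (fun p : Γ × (B × Cv D') => (p.1, ι p.2))
      ((ContinuousLinearMap.id ℂ Γ).prodMap J) (0, (v0.1, 0)) :=
    hasFDerivAt_fst.prodMk ((J.hasFDerivAt.add_const _).comp _ hasFDerivAt_snd)
  obtain ⟨g, g1, g2, g3⟩ := ift1 (f := fun p : Γ × (B × Cv D') => α (p.1, ι p.2))
    (a := (0, (v0.1, 0)))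
    (ContDiffAt.comp (g := α) _ (by rwa [i0]) (contDiffAt_fst.prodMk
      (i1.contDiffAt.comp _ contDiffAt_snd)))
    (HasFDerivAt.comp (g := α) _ (by rwa [i0]) i2)
    ⟨(injective_iff_map_eq_zero _).2 fun p hp => by
      have hp' : L (p.1, J p.2) = 0 := hp
      have a := (k2 _).symm.trans (congrArg Prod.fst hp')
      rw [k3] at hp'
      have b := (injective_iff_map_eq_zero _).1 hj.1 (p.1, p.2.2) (congrArg Prod.snd hp')
      exact Prod.ext (Prod.ext_iff.1 b).1 (Prod.ext a (Prod.ext_iff.1 b).2), fun z => by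
      obtain ⟨u, hu⟩ := hj.2 z.2
      refine ⟨(u.1, z.1, u.2), Prod.ext (k2 _) ?_⟩
      change (L (u.1, J (z.1, u.2))).2 = _
      rw [k3]
      exact hu⟩
  have g4 := g2.self_of_nhds
  simp only [i0, h2.self_of_nhds] at g1 g3 g4
  refine ⟨D', ι, fun v => (g v).1, fun v => (g v).2, i1, g1.fst, g1.snd, by simp only [g4, i0],
    by simp only [g4], fun w => add_zero _, g3, ?_⟩
  simp only [g4]
  exact g2.mono fun p h => congrArg Prod.snd h

end Vale.Agent.P275SL
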